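import Vale.Agent.P052.Final

theorem Vale.Agent.Results.P052.Dim9.result :
    ∀ d : ℕ, 9 ≤ d → ∃ Y : Set (EuclideanSpace ℝ (Fin d)),
      Bornology.IsBounded Y ∧ 0 < Metric.diam Y ∧
        ¬ ∃ Z : Fin (d + 1) → Set (EuclideanSpace ℝ (Fin d)),
          (⋃ i, Z i) = Y ∧ ∀ i, Metric.diam (Z i) < Metric.diam Y := by
  intro d hd
  obtain ⟨Y, h1, h2, h3⟩ := (Vale.Agent.P052.bad_of_le hd).final
  refine ⟨Y, h1, h2, ?_⟩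
  rintro ⟨Z, hZ, h⟩
  obtain ⟨i, hi⟩ := h3 Z hZ
  exact absurd (h i) (not_lt.2 hi)
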